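import Vale.Agent.P273.D14.H17.Genus2
import Vale.Agent.P273.D14.H387.GBR
import Vale.Agent.P273.D14.H387.GTr
import Vale.Agent.P273.D14.H599.Leaf

/-!
Relations at a vertex of genus 2, for the functional `G φ`.
-/

noncomputable section
namespace Vale.Agent.P273.D14.H17
open Sum Vale.Agent.P273 Vale.Agent.P273.C1.R3B Vale.Agent.P273.C1.R1B Vale.Agent.P273.D14.Mv
open H387 (Und LL)
open scoped Classical

variable {V E V' E' L M N R T R' T' : Type}

lemma br_inst {φ : Und} (hφ : φ.Br) : BR (H387.G φ) := by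
  intro V E G0 t b S hS h1 h2 h
  obtain ⟨v, b', -, -, h3, h4, h5, -⟩ := H387.br_G hφ hS h1 h2 h
  refine ⟨v, h3, congrArg Prod.fst h4, ?_, h5⟩
  rw [← H387.rz_sum, h4]
  rfl

lemma sp_inst {φ : Und} : SP (H387.G φ) := fun _ _ _ h v =>
  ⟨H387.sp_G' h true v, H387.sp_G' h false v⟩

lemma as_inst {φ : Und} (hφ : φ.Inv) : AS (H387.G φ) := fun c _ _ hij =>
  (asw_iff _ _ _ _).2 fun V E a f => H387.anti_G hφ hij c V E a f

/-- The legs at the leaf first. -/
def opb (M : Type) : Option (Option M) ≃ M ⊕ Bool where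
  toFun o := o.elim (inr true) fun o => o.elim (inr false) inl
  invFun := Sum.elim (fun m => some (some m)) fun b => cond b none (some none)
  left_inv := by rintro (_ | _ | m) <;> rfl
  right_inv := by rintro (m | _ | _) <;> rfl

/-- The two ways to glue a leaf agree. -/
lemma kills_of_leaf {g d : ℕ} {s : Q.Fn N} (ε : M ⊕ Bool ≃ N)
    (h : ∀ (V E : Type) a f, Q.pull g d (H599.leaf ε s) V E a f = 0) :
    KillsLf g d s (ε (inr true)) (ε (inr false)) := by
  refine ⟨M, (opb M).trans ε, rfl, rfl, ?_⟩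
  have h1 : lk (rb ((opb M).trans ε) s) = H599.leaf ε s := by
    funext V E a f
    show s _ _ _ (fun y => (leafG (⟨a, f⟩ : Gr V E (Option M))).hf
      (y.map id ((opb M).trans ε).symm)) = s _ _ _ _
    congr 1
    funext y
    rcases y with ⟨_ | e, _ | _⟩ | x
    · rfl
    · rfl
    · rfl
    · rfl
    · obtain ⟨z, rfl⟩ := ε.surjective x
      have h2 : H599.lf ε f (inr (ε z)) =
          (z.elim (fun m => (f (inr (some m))).map some id) fun _ => (none, 0)) := by
        show ((ε.symm (ε z)).elim _ _ : Option V × ℕ) = _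
        rw [Equiv.symm_apply_apply]
      rw [h2]
      show (leafG (⟨a, f⟩ : Gr V E (Option M))).hf (inr ((opb M).symm (ε.symm (ε z)))) = _
      rw [Equiv.symm_apply_apply]
      rcases z with m | _ | _ <;> rfl
  rw [h1]
  exact h

/-- Relations at a vertex of genus 2. -/
theorem genus2_G {φ : Und} (hi : φ.Inv) (hb : φ.Br) (ε : M ⊕ Bool ≃ LL) {i j : Fin 8}
    (h1 : ε (inr true) = (i, true)) (h2 : ε (inr false) = (j, false))
    (hlk : ∀ (V E : Type) a f, Q.pull 2 8 (H599.leaf ε (H387.G φ)) V E a f = 0)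
    (R T L : Type) [hR : Finite R] [hT : Finite T] [hL : Finite L] (r : R → ℕ × Multiset ℕ)
    (u : (T × Bool) ⊕ LL → L ⊕ R × ℕ) (b A : L → ℕ) (e : ℕ)
    (hu : ∀ y z x, u y = inl x → u z = inl x → y = z) (hA : ∀ x, A x ≤ 1)
    (hlt : 2 + ∑ᶠ x, A x < 3 * e) : rl (H387.G φ) r u b A 2 e = 0 := by
  have h3 := kills_of_leaf ε hlk
  rw [h1, h2] at h3
  exact genus2 (H387.tr_G hi) (br_inst hb) sp_inst (as_inst hi) (h3.all (as_inst hi)) e R T L
    ⟨r, u, b⟩ A hR hT hL hu hA hlt

end Vale.Agent.P273.D14.H17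
end
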