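import Vale.Agent.P273.D14.H17.Leaf
import Vale.Agent.P273.D14.H741.Upd

/-!
Leaves can be moved away from Pixton's relations: the criterion.
-/

noncomputable section
namespace Vale.Agent.P273.D14.H17
open Sum Vale.Agent.P273 Vale.Agent.P273.C1.R3B Vale.Agent.P273.C1.R1B Vale.Agent.P273.D14.Mv
open scoped Classical

variable {V E V' E' L M N R T R' T' : Type}

/-- The vertex `r` of the environment is a leaf with the legs `i` and `j`, and with the
half-edge `y` of its edge. -/
structure IsLf (W : Env R T L N) (i j : N) (r : R) (y : T × Bool) : Prop where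
  dec : W.dec r = (0, 0)
  ne : i ≠ j
  hi : W.use (inr i) = inr (r, 0)
  hj : W.use (inr j) = inr (r, 0)
  hy : W.use (inl y) = inr (r, 0)
  only : ∀ z c, W.use z = inr (r, c) → z = inr i ∨ z = inr j ∨ z = inl y

/-- Relabelling the legs of an environment. -/
def relab (W : Env R T L N) (ε : M ≃ N) : Env R T L M :=
  ⟨W.dec, fun z => W.use (z.map id ε), W.b⟩

lemma rlE_relab (s : Q.Fn N) (W : Env R T L N) (ε : M ≃ N) (A : L → ℕ) (γ e : ℕ) :
    rlE (rb ε s) (relab W ε) A γ e = rlE s W A γ e :=
  rl_rb ε s W.dec W.use W.b A γ e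

lemma relab_inj {W : Env R T L N} (hW : ∀ y z x, W.use y = inl x → W.use z = inl x → y = z)
    (ε : M ≃ N) : ∀ y z x, (relab W ε).use y = inl x → (relab W ε).use z = inl x → y = z := by
  intro y z x hy hz
  have h := hW _ _ _ hy hz
  rcases y with y | y <;> rcases z with z | z
  · simpa using h
  · cases h
  · cases h
  · have h1 := inr.inj h
    rw [ε.injective h1]

/-- The half-edges of the environment without the leaf. -/
def emc (y : T × Bool) (ε : Option (Option M) ≃ N) :
    ({t // t ≠ y.1} × Bool) ⊕ Option M → (T × Bool) ⊕ N :=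
  Sum.elim (fun p => inl (p.1.1, p.2))
    (fun o => o.elim (inl (y.1, !y.2)) fun m => inr (ε (some (some m))))

lemma emc_inj (y : T × Bool) (ε : Option (Option M) ≃ N) : (emc y ε).Injective := by
  rintro (⟨⟨t, ht⟩, b⟩ | _ | m) (⟨⟨t', ht'⟩, b'⟩ | _ | m') h
  · simpa [emc] using h
  · simp only [emc, elim_inl, elim_inr, Option.elim_none, inl.injEq, Prod.mk.injEq] at h
    exact absurd h.1 ht
  · cases h
  · simp only [emc, elim_inl, elim_inr, Option.elim_none, inl.injEq, Prod.mk.injEq] at h
    exact absurd h.1.symm ht'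
  · rfl
  · cases h
  · cases h
  · cases h
  · simp only [emc, elim_inr, Option.elim_some, inr.injEq, EmbeddingLike.apply_eq_iff_eq,
      Option.some.injEq] at h
    rw [h]

variable {W : Env R T L N} {i j : N} {r : R} {y : T × Bool}

lemma IsLf.exists_cut (H : IsLf W i j r y) (ε : Option (Option M) ≃ N) (hi : ε none = i)
    (hj : ε (some none) = j) (z : ({t // t ≠ y.1} × Bool) ⊕ Option M) :
    ∃ p : L ⊕ {r' // r' ≠ r} × ℕ, p.map id (Prod.map Subtype.val id) = W.use (emc y ε z) := by
  rcases h : W.use (emc y ε z) with x | p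
  · exact ⟨inl x, rfl⟩
  · have hp : p.1 ≠ r := by
      intro hp
      have h1 := H.only (emc y ε z) p.2 (by rw [h, ← hp])
      rcases z with ⟨⟨t, ht⟩, b⟩ | _ | m
      · rcases h1 with h1 | h1 | h1
        · cases h1
        · cases h1
        · have h2 := inl.inj h1
          exact ht (congrArg Prod.fst h2)
      · rcases h1 with h1 | h1 | h1
        · cases h1
        · cases h1
        · have h2 := congrArg Prod.snd (inl.inj h1)
          simp at h2
      · rcases h1 with h1 | h1 | h1
        · have h2 := inr.inj h1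
          rw [← hi] at h2
          exact absurd (ε.injective h2) (by simp)
        · have h2 := inr.inj h1
          rw [← hj] at h2
          exact absurd (ε.injective h2) (by simp)
        · cases h1
    exact ⟨inr (⟨p.1, hp⟩, p.2), rfl⟩

/-- The environment is obtained by gluing a leaf to a smaller environment. -/
theorem IsLf.cut (H : IsLf W i j r y) (ε : Option (Option M) ≃ N) (hi : ε none = i)
    (hj : ε (some none) = j) : ∃ (W' : Env {r' // r' ≠ r} {t // t ≠ y.1} L (Option M))
      (φ : Option {r' // r' ≠ r} → R) (ρ : Option {t // t ≠ y.1} × Bool → T × Bool),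
      EIso (leafE W') (relab W ε) φ ρ ∧
      (∀ x, W.use (inl (y.1, !y.2)) = inl x → W'.use (inr none) = inl x) ∧
      W'.b = W.b ∧
      ((∀ y z x, W.use y = inl x → W.use z = inl x → y = z) →
        ∀ y z x, W'.use y = inl x → W'.use z = inl x → y = z) := by
  choose w hw using H.exists_cut ε hi hj
  have hinl : ∀ z x, w z = inl x ↔ W.use (emc y ε z) = inl x := by
    intro z x
    rw [← hw]
    rcases w z with x' | p <;> simp
  refine ⟨⟨fun v => W.dec v.1, w, W.b⟩, fun o => o.elim r Subtype.val,
    fun p => p.1.elim (cond p.2 y (y.1, !y.2)) (fun t => (t.1, p.2)), ⟨?_, ?_, ?_, ?_, ?_, rfl⟩,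
    fun x hx => (hinl _ _).2 hx, rfl, ?_⟩
  · constructor
    · rintro (_ | ⟨v, hv⟩) (_ | ⟨v', hv'⟩) h
      · rfl
      · exact absurd h.symm hv'
      · exact absurd h hv
      · have h1 : v = v' := h
        subst h1
        rfl
    · intro v
      by_cases hv : v = r
      · exact ⟨none, hv.symm⟩
      · exact ⟨some ⟨v, hv⟩, rfl⟩
  · obtain ⟨t₀, b₀⟩ := y
    constructor
    · rintro ⟨_ | ⟨t, ht⟩, b⟩ ⟨_ | ⟨t', ht'⟩, b'⟩ h
      · cases b <;> cases b' <;> simp at h ⊢
      · have h1 := congrArg Prod.fst h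
        have h2 : t₀ = t' := by
          cases b <;> exact h1
        exact absurd h2.symm ht'
      · have h1 := congrArg Prod.fst h
        have h2 : t = t₀ := by
          cases b' <;> exact h1
        exact absurd h2 ht
      · have h1 := congrArg Prod.fst h
        have h2 := congrArg Prod.snd h
        dsimp only [Option.elim] at h1 h2
        subst h1 h2
        rfl
    · rintro ⟨t, b⟩
      by_cases ht : t = t₀
      · subst ht
        by_cases hb : b = b₀
        · subst hb
          exact ⟨(none, true), rfl⟩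
        · refine ⟨(none, false), ?_⟩
          show (t, !b₀) = (t, b)
          cases b <;> cases b₀ <;> simp_all
      · exact ⟨(some ⟨t, ht⟩, b), rfl⟩
  · rintro (_ | t) <;> rfl
  · rintro (_ | v)
    · exact H.dec
    · rfl
  · intro z
    rcases leaf_cases z with rfl | rfl | rfl | ⟨z, rfl⟩
    · rw [leafE_true]
      exact H.hy
    · rw [leafE_leg1]
      show W.use (inr (ε none)) = _
      rw [hi]
      exact H.hi
    · rw [leafE_leg2]
      show W.use (inr (ε (some none))) = _
      rw [hj]
      exact H.hj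
    · rw [leafE_old]
      have h1 : (relab W ε).use ((lo z).map (fun p : Option {t // t ≠ y.1} × Bool =>
          p.1.elim (cond p.2 y (y.1, !y.2)) (fun t => (t.1, p.2))) id) = W.use (emc y ε z) := by
        rcases z with ⟨e, b⟩ | _ | z <;> rfl
      rw [h1, ← hw]
      show _ = (up (w z)).map id _
      rcases w z with x | p <;> rfl
  · intro hW a b x ha hb
    exact emc_inj y ε (hW _ _ x ((hinl _ _).1 ha) ((hinl _ _).1 hb))

lemma rb_refl (s : Q.Fn N) : rb (Equiv.refl N) s = s := by
  funext V E a f
  show s V E a (fun y => f (y.map id id)) = s V E a f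
  congr 1
  funext y
  rw [Sum.map_id_id]
  rfl

/-- The induction step. -/
theorem leaf_step {g d : ℕ} [Finite N] {s : Q.Fn N} (hs : Q.Tr g (d + 1) s)
    (hg : 4 < 2 * g + Nat.card N) [Finite R] [Finite T] [Finite L]
    (hW : ∀ y z x, W.use y = inl x → W.use z = inl x → y = z) (H : IsLf W i j r y)
    (ε : Option (Option M) ≃ N) (hi : ε none = i) (hj : ε (some none) = j)
    (hk : ∀ (V E : Type) a f, Q.pull g d (lk (rb ε s)) V E a f = 0)
    (A : L → ℕ) (γ e : ℕ) (hA : ∀ x, A x ≤ 1) (hlt : γ + ∑ᶠ x, A x < 3 * e)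
    {x : L} (hx : W.use (inl (y.1, !y.2)) = inl x) (hA0 : A x = 0) (hb0 : W.b x = 0)
    (ih : ∀ (R T L' : Type) (W : Env R T L' N) (A : L' → ℕ), Finite R → Finite T →
      Finite L' → Nat.card L' < Nat.card L →
      (∀ y z x, W.use y = inl x → W.use z = inl x → y = z) → (∀ x, A x ≤ 1) →
      γ + ∑ᶠ x, A x < 3 * e → rlE s W A γ e = 0) : rlE s W A γ e = 0 := by
  obtain ⟨W', φ, ρ, I, h1, h2, h3⟩ := H.cut ε hi hj
  have hM : Finite (Option (Option M)) := Finite.of_equiv _ ε.symm
  have hM' : Finite (Option M) := Finite.of_injective some (Option.some_injective _)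
  have hM'' : Finite M := Finite.of_injective some (Option.some_injective _)
  have ht := tr_rb ε hs
  have hcard : Nat.card N = Nat.card M + 2 := by
    rw [← Nat.card_congr ε, Finite.card_option, Finite.card_option]
  rw [← rlE_relab s W ε, ← I.rlE ht, rlE_leafE ht]
  show rl (lk (rb ε s)) W'.dec W'.use W'.b A γ e = 0
  apply step (tr_lk ht) (by rw [Finite.card_option]; omega) (i := none)
    ⟨M, Equiv.refl _, rfl, by rw [rb_refl]; exact hk⟩ W'.dec W'.use W'.b A γ e (h3 hW) hA hlt
    (h1 x hx) hA0 (by rw [h2]; exact hb0)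
  intro R₁ T₁ L₁ r₁ u₁ b₁ A₁ hR₁ hT₁ hL₁ hc hu₁ hA₁ hlt₁
  have hu₁' : ∀ y z x, (⟨r₁, u₁, b₁⟩ : Env R₁ T₁ L₁ (Option M)).use y = inl x →
      (⟨r₁, u₁, b₁⟩ : Env R₁ T₁ L₁ (Option M)).use z = inl x → y = z := hu₁
  have h4 : rlE s (relab (leafE (⟨r₁, u₁, b₁⟩ : Env R₁ T₁ L₁ (Option M))) ε.symm) A₁ γ e = 0 :=
    ih _ _ _ _ _ inferInstance inferInstance hL₁ hc (relab_inj (leafE_inj hu₁') _) hA₁ hlt₁
  have h5 := rlE_relab s (relab (leafE (⟨r₁, u₁, b₁⟩ : Env R₁ T₁ L₁ (Option M))) ε.symm) ε A₁ γ e
  have h6 : relab (relab (leafE (⟨r₁, u₁, b₁⟩ : Env R₁ T₁ L₁ (Option M))) ε.symm) ε =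
      leafE (⟨r₁, u₁, b₁⟩ : Env R₁ T₁ L₁ (Option M)) := by
    unfold relab
    congr 1
    funext z
    rcases z with z | z
    · rfl
    · show (leafE (⟨r₁, u₁, b₁⟩ : Env R₁ T₁ L₁ (Option M))).use (inr (ε.symm (ε z))) = _
      rw [Equiv.symm_apply_apply]
      rfl
  rw [h6, h4, rlE_leafE ht] at h5
  exact h5

/-- A leaf at a position with `A = b = 0`, with legs in the relation `K`. -/
def FreeLf (K : N → N → Prop) (W : Env R T L N) (A : L → ℕ) : Prop :=
  ∃ i j r y x, K i j ∧ IsLf W i j r y ∧ W.use (inl (y.1, !y.2)) = inl x ∧ A x = 0 ∧ W.b x = 0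

/-- The functional `s` is killed by moving a leaf with the legs `i` and `j`. -/
def KillsLf (g d : ℕ) (s : Q.Fn N) (i j : N) : Prop :=
  ∃ (M : Type) (ε : Option (Option M) ≃ N), ε none = i ∧ ε (some none) = j ∧
    ∀ (V E : Type) a f, Q.pull g d (lk (rb ε s)) V E a f = 0

/-- The environment with another kappa decoration at `r`. -/
def updE (W : Env R T L N) (r : R) (K : Multiset ℕ) : Env R T L N :=
  ⟨fun r' => if r' = r then ((W.dec r).1, K) else W.dec r', W.use, W.b⟩

lemma updE_dec_self (W : Env R T L N) (r : R) (K : Multiset ℕ) :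
    (updE W r K).dec r = ((W.dec r).1, K) := if_pos rfl

lemma updE_dec_ne (W : Env R T L N) {r r' : R} (K : Multiset ℕ) (h : r' ≠ r) :
    (updE W r K).dec r' = W.dec r' := if_neg h

lemma rlE_zero [Finite L] {g d : ℕ} {s : Q.Fn N} (hs : Q.Tr g d s) (W : Env R T L N) (r : R)
    {K : Multiset ℕ} (hK : (W.dec r).2 = 0 ::ₘ K) (A : L → ℕ) (γ e : ℕ) :
    rlE s W A γ e = (2 * ((W.dec r).1 : ℚ) - 2 + W.nR r + K.card) * rlE s (updE W r K) A γ e := by
  rw [rlE_eq, rlE_eq, Finset.mul_sum]
  apply Finset.sum_congr rfl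
  intro p _
  have h1 := hs.2.2 _ _ ((updE W r K).graft p.2.2).dec ((updE W r K).graft p.2.2).hf (inr r)
  have h2 : ((updE W r K).graft p.2.2).dec (inr r) = ((W.dec r).1, K) := by
    rw [Env.graft_dec_inr, updE_dec_self]
  have h3 : Q.nv ((updE W r K).graft p.2.2).hf (inr r) = W.nR r := by
    rw [cnv_eq ((updE W r K).graft p.2.2).dec]
    exact nv_graft_inr (updE W r K) p.2.2 r
  rw [h3, h2] at h1
  dsimp only at h1
  have h4 : Mv.sg s (W.graft p.2.2) = s _ _ (Function.update ((updE W r K).graft p.2.2).dec (inr r)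
      ((W.dec r).1, 0 ::ₘ K)) ((updE W r K).graft p.2.2).hf := by
    have h5 : (W.graft p.2.2).dec = Function.update ((updE W r K).graft p.2.2).dec (inr r)
        ((W.dec r).1, 0 ::ₘ K) := by
      funext w
      rcases w with v | r'
      · rw [Function.update_of_ne (by simp)]
        rfl
      · by_cases hr : r' = r
        · subst hr
          rw [Function.update_self, Env.graft_dec_inr, ← hK]
        · rw [Function.update_of_ne (by simpa using hr), Env.graft_dec_inr, Env.graft_dec_inr,
            updE_dec_ne W K hr]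
    rw [← h5]
    rfl
  rw [h4]
  refine (congrArg (cf γ A e p * ·) ?_).trans (mul_left_comm _ _ _)
  refine Eq.trans ?_ h1
  exact congrArg (fun z => s _ _ z _) (upd_eq _ _ _ _ _)

/-- A family of relations placed at a vertex of genus `γ` vanishes if those without free leaves
and without decorations `κ₀` of the environment do. -/
theorem leaf_crit {g d : ℕ} [Finite N] {s : Q.Fn N} (hs : Q.Tr g (d + 1) s)
    (hg : 4 < 2 * g + Nat.card N) (K : N → N → Prop)
    (hK : ∀ i j, K i j → i ≠ j → KillsLf g d s i j) (γ e : ℕ)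
    (h : ∀ (R T L : Type) (W : Env R T L N) (A : L → ℕ), Finite R → Finite T → Finite L →
      (∀ y z x, W.use y = inl x → W.use z = inl x → y = z) → (∀ x, A x ≤ 1) →
      γ + ∑ᶠ x, A x < 3 * e → (∀ r, 0 ∉ (W.dec r).2) → ¬ FreeLf K W A → rlE s W A γ e = 0) :
    ∀ (R T L : Type) (W : Env R T L N) (A : L → ℕ), Finite R → Finite T → Finite L →
      (∀ y z x, W.use y = inl x → W.use z = inl x → y = z) → (∀ x, A x ≤ 1) →
      γ + ∑ᶠ x, A x < 3 * e → rlE s W A γ e = 0 := by
  have key : ∀ (n : ℕ) (R T L : Type) (W : Env R T L N) (A : L → ℕ), Finite R → Finite T →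
      Finite L → Nat.card L = n →
      (∀ y z x, W.use y = inl x → W.use z = inl x → y = z) → (∀ x, A x ≤ 1) →
      γ + ∑ᶠ x, A x < 3 * e → rlE s W A γ e = 0 := by
    intro n
    induction n using Nat.strong_induction_on with
    | _ n ih =>
      intro R T L W A hR hT hL hn hW hA hlt
      have key2 : ∀ (m : ℕ) (W : Env R T L N), ∑ᶠ r, (W.dec r).2.card = m →
          (∀ y z x, W.use y = inl x → W.use z = inl x → y = z) → rlE s W A γ e = 0 := by
        intro m
        induction m with
        | zero =>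
          intro W hm hW
          have := Fintype.ofFinite R
          rw [finsum_eq_sum_of_fintype, Finset.sum_eq_zero_iff] at hm
          have hz : ∀ r, 0 ∉ (W.dec r).2 := by
            intro r h0
            have h1 := hm r (Finset.mem_univ r)
            rw [Multiset.card_eq_zero] at h1
            rw [h1] at h0
            simp at h0
          by_cases hf : FreeLf K W A
          · obtain ⟨i, j, r, y, x, hij, H, hx, hA0, hb0⟩ := hf
            obtain ⟨M, ε, hi, hj, hk⟩ := hK i j hij H.ne
            apply leaf_step hs hg hW H ε hi hj hk A γ e hA hlt hx hA0 hb0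
            intro R' T' L' W' A' hR' hT' hL' hc hW' hA' hlt'
            exact ih _ (by omega) R' T' L' W' A' hR' hT' hL' rfl hW' hA' hlt'
          · exact h R T L W A hR hT hL hW hA hlt hz hf
        | succ m ihm =>
          intro W hm hW
          by_cases hz : ∀ r, 0 ∉ (W.dec r).2
          · by_cases hf : FreeLf K W A
            · obtain ⟨i, j, r, y, x, hij, H, hx, hA0, hb0⟩ := hf
              obtain ⟨M, ε, hi, hj, hk⟩ := hK i j hij H.ne
              apply leaf_step hs hg hW H ε hi hj hk A γ e hA hlt hx hA0 hb0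
              intro R' T' L' W' A' hR' hT' hL' hc hW' hA' hlt'
              exact ih _ (by omega) R' T' L' W' A' hR' hT' hL' rfl hW' hA' hlt'
            · exact h R T L W A hR hT hL hW hA hlt hz hf
          · push Not at hz
            obtain ⟨r, hr⟩ := hz
            obtain ⟨K', hK'⟩ := Multiset.exists_cons_of_mem hr
            rw [rlE_zero hs W r hK', ihm (updE W r K') ?_ hW, mul_zero]
            have := Fintype.ofFinite R
            rw [finsum_eq_sum_of_fintype] at hm ⊢
            rw [← Finset.add_sum_erase _ _ (Finset.mem_univ r)] at hm ⊢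
            rw [updE_dec_self]
            rw [hK', Multiset.card_cons] at hm
            have h1 : ∀ r' ∈ Finset.univ.erase r, ((updE W r K').dec r').2.card =
                (W.dec r').2.card := by
              intro r' hr'
              rw [updE_dec_ne W K' (Finset.ne_of_mem_erase hr')]
            rw [Finset.sum_congr rfl h1]
            dsimp only
            omega
      exact key2 _ W rfl hW
  intro R T L W A hR hT hL hW hA hlt
  exact key _ R T L W A hR hT hL rfl hW hA hlt

end Vale.Agent.P273.D14.H17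
end
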