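import Vale.Agent.P273.D14.H17.LeafMove

/-!
The environment of a vertex whose genus is the whole genus, for a functional that vanishes on
graphs with a bridge other than the edge of a leaf: a star of leaves.
-/

noncomputable section
namespace Vale.Agent.P273.D14.H17
open Sum Vale.Agent.P273 Vale.Agent.P273.C1.R3B Vale.Agent.P273.C1.R1B Vale.Agent.P273.D14.Mv
open scoped Classical

variable {V E V' E' L M N R T R' T' : Type}

/-- A connected graph has at most one vertex more than edges. -/
lemma conn_card [Finite V] [Finite E] [Nonempty V] (h : E × Bool → V)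
    (hc : ∀ s : Set V, (∀ e, h (e, true) ∈ s ↔ h (e, false) ∈ s) → s = ∅ ∨ s = Set.univ) :
    Nat.card V ≤ Nat.card E + 1 := by
  let G : Gr V E Empty := ⟨fun _ => (2, 0), Sum.elim (fun y => (h y, 0)) Empty.elim⟩
  have hs : G.Stab (Nat.card V + Nat.card E + 1) := by
    refine ⟨inferInstance, hc, ?_, ?_⟩
    · have := Fintype.ofFinite V
      rw [finsum_eq_sum_of_fintype]
      show ∑ _v : V, 2 + _ + 1 = _
      rw [Finset.sum_const, Finset.card_univ, ← Nat.card_eq_fintype_card, smul_eq_mul]
      omega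
    · intro v
      show 2 < 2 * 2 + _
      omega
  exact hs.conn_card

/-- The graph of the environment, with the special vertex `none`. -/
def ctr (W : Env R T L N) (y : T × Bool) : Option R :=
  (W.use (inl y)).elim (fun _ => none) fun p => some p.1

lemma ctr_eq {W : Env R T L N} (G : Gr V E L) (y : T × Bool) (S : Set (Option R)) :
    ((W.graft G).hf (lft E (inl y))).1 ∈
      {w : V ⊕ R | w.elim (fun _ => none ∈ S) (fun r => some r ∈ S)} ↔ ctr W y ∈ S := by
  rw [graft_hf_lft]
  unfold ctr
  rcases hy : W.use (inl y) with x | p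
  · rw [Env.usehf_inl hy]
    rfl
  · rw [Env.usehf_inr hy]
    rfl

/-- the genus of the environment -/
lemma genus_env [Finite V] [Finite E] [Finite R] [Finite T] {W : Env R T L N} {G : Gr V E L}
    {g : ℕ} (hG : G.Stab g) (hH : (W.graft G).Stab g) :
    ∑ᶠ r, (W.dec r).1 + Nat.card T = Nat.card R := by
  have := Fintype.ofFinite V
  have := Fintype.ofFinite R
  have h1 := hG.2.2.1
  have h2 := hH.2.2.1
  rw [finsum_eq_sum_of_fintype] at h1 h2 ⊢
  rw [Fintype.sum_sum_type, Nat.card_sum, Nat.card_sum] at h2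
  have e1 : ∑ v, ((W.graft G).dec (inl v)).1 = ∑ v, (G.dec v).1 := rfl
  have e2 : ∑ r, ((W.graft G).dec (inr r)).1 = ∑ r, (W.dec r).1 := rfl
  rw [e1, e2] at h2
  omega

/-- the graph of the environment is connected -/
lemma conn_ctr {W : Env R T L N} {G : Gr V E L} [Nonempty V]
    (hH : ∀ s : Set (V ⊕ R), (∀ e, ((W.graft G).hf (inl (e, true))).1 ∈ s ↔
      ((W.graft G).hf (inl (e, false))).1 ∈ s) → s = ∅ ∨ s = Set.univ) :
    ∀ S : Set (Option R), (∀ t, ctr W (t, true) ∈ S ↔ ctr W (t, false) ∈ S) →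
      S = ∅ ∨ S = Set.univ := by
  intro S hS
  have h1 := hH {w : V ⊕ R | w.elim (fun _ => none ∈ S) (fun r => some r ∈ S)} (by
    rintro (e | t)
    · exact Iff.rfl
    · exact (ctr_eq G (t, true) S).trans ((hS t).trans (ctr_eq G (t, false) S).symm))
  obtain ⟨v⟩ := ‹Nonempty V›
  rcases h1 with h1 | h1
  · left
    ext w
    have h2 : ∀ w : V ⊕ R, w.elim (fun _ => none ∈ S) (fun r => some r ∈ S) → False := by
      intro w hw
      have : w ∈ {w : V ⊕ R | w.elim (fun _ => none ∈ S) (fun r => some r ∈ S)} := hw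
      rw [h1] at this
      exact this
    rcases w with _ | r
    · exact ⟨fun h => h2 (inl v) h, fun h => h.elim⟩
    · exact ⟨fun h => h2 (inr r) h, fun h => h.elim⟩
  · right
    ext w
    have h2 : ∀ w : V ⊕ R, w.elim (fun _ => none ∈ S) (fun r => some r ∈ S) := by
      intro w
      have : w ∈ {w : V ⊕ R | w.elim (fun _ => none ∈ S) (fun r => some r ∈ S)} := by
        rw [h1]
        exact Set.mem_univ _
      exact this
    rcases w with _ | r
    · exact ⟨fun _ => Set.mem_univ _, fun _ => h2 (inl v)⟩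
    · exact ⟨fun _ => Set.mem_univ _, fun _ => h2 (inr r)⟩

/-- The functional vanishes on graphs with a bridge other than the edge of a leaf. -/
def BR (s : Q.Fn N) : Prop := ∀ (V E : Type) (G : Gr V E N) (t : E) (b : Bool) (S : Set V),
  (∀ e, e ≠ t → ((G.hf (inl (e, true))).1 ∈ S ↔ (G.hf (inl (e, false))).1 ∈ S)) →
  (G.hf (inl (t, b))).1 ∈ S → (G.hf (inl (t, !b))).1 ∉ S → Mv.sg s G ≠ 0 →
  ∃ v, (S = {v} ∨ Sᶜ = {v}) ∧ (G.dec v).1 = 0 ∧ (G.dec v).2.sum = 0 ∧ G.nv v = 3

/-- every edge of the environment is the edge of a leaf -/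
lemma edge_leaf [Finite R] [Finite T] [Finite V] [Finite E] {s : Q.Fn N} (hbr : BR s)
    {g : ℕ} (hg : 1 < g) {W : Env R T L N} {G : Gr V E L} (hG : G.Stab g)
    (hH : (W.graft G).Stab g) [Finite N] (hz : ∀ r, 0 ∉ (W.dec r).2)
    (hne : Mv.sg s (W.graft G) ≠ 0) (t : T) : ∃ (r : R) (b : Bool) (c : ℕ), W.dec r = (0, 0) ∧ W.nR r = 3 ∧
      W.use (inl (t, b)) = inr (r, c) := by
  have hV := hG.1
  have hgen := genus_env hG hH
  -- the environment without the edge is not connected
  have hex : ∃ S : Set (Option R), S ≠ ∅ ∧ S ≠ Set.univ ∧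
      ∀ e, e ≠ t → (ctr W (e, true) ∈ S ↔ ctr W (e, false) ∈ S) := by
    by_contra hcon
    push Not at hcon
    have h1 := conn_card (V := Option R) (E := {e // e ≠ t}) (fun y => ctr W (y.1.1, y.2)) (by
      intro S hS
      by_contra h
      push Not at h
      obtain ⟨e, he, h2⟩ := hcon S h.1 h.2
      have h3 := hS ⟨e, he⟩
      rcases h2 with h2 | h2
      · exact h2.2 (h3.1 h2.1)
      · exact h2.1 (h3.2 h2.2))
    have h2 := Gr.card_ne T t
    rw [Finite.card_option] at h1
    omega
  obtain ⟨S₀, hS₀, hS₀', hS₀e⟩ := hex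
  -- the side that does not contain the special vertex
  obtain ⟨S, hS, hn, hSe⟩ : ∃ S : Set (Option R), S ≠ ∅ ∧ none ∉ S ∧
      ∀ e, e ≠ t → (ctr W (e, true) ∈ S ↔ ctr W (e, false) ∈ S) := by
    by_cases hn : none ∈ S₀
    · refine ⟨S₀ᶜ, ?_, ?_, ?_⟩
      · intro h
        exact hS₀' (Set.compl_empty_iff.1 h)
      · intro h
        exact h hn
      · intro e he
        exact not_congr (hS₀e e he)
    · exact ⟨S₀, hS₀, hn, hS₀e⟩
  set S' : Set (V ⊕ R) := {w : V ⊕ R | w.elim (fun _ => none ∈ S) (fun r => some r ∈ S)} with hS'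
  have hSl : ∀ v, inl v ∉ S' := fun v h => hn h
  have hedge : ∀ e, e ≠ inr t → (((W.graft G).hf (inl (e, true))).1 ∈ S' ↔
      ((W.graft G).hf (inl (e, false))).1 ∈ S') := by
    rintro (e | e) he
    · exact Iff.rfl
    · exact (ctr_eq G (e, true) S).trans ((hSe e (fun h => he (congrArg inr h))).trans
        (ctr_eq G (e, false) S).symm)
  have hcross : ¬ (((W.graft G).hf (inl (inr t, true))).1 ∈ S' ↔
      ((W.graft G).hf (inl (inr t, false))).1 ∈ S') := by
    intro h
    have h1 := hH.2.1 S' (by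
      intro e
      by_cases he : e = inr t
      · rw [he]
        exact h
      · exact hedge e he)
    rcases h1 with h1 | h1
    · apply hS
      ext w
      rcases w with _ | r
      · exact ⟨fun h => (hn h).elim, fun h => h.elim⟩
      · refine ⟨fun h => ?_, fun h => h.elim⟩
        have : (inr r : V ⊕ R) ∈ S' := h
        rw [h1] at this
        exact this.elim
    · obtain ⟨v⟩ := hV
      apply hSl v
      rw [h1]
      exact Set.mem_univ _
  obtain ⟨b, hb1, hb2⟩ : ∃ b, ((W.graft G).hf (inl (inr t, b))).1 ∈ S' ∧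
      ((W.graft G).hf (inl (inr t, !b))).1 ∉ S' := by
    by_cases h1 : ((W.graft G).hf (inl (inr t, true))).1 ∈ S'
    · refine ⟨true, h1, fun h2 => hcross ⟨fun _ => h2, fun _ => h1⟩⟩
    · refine ⟨false, ?_, h1⟩
      by_contra h2
      exact hcross ⟨fun h => (h1 h).elim, fun h => (h2 h).elim⟩
  obtain ⟨w, hw, hdec, hsum, hnv⟩ := hbr _ _ (W.graft G) (inr t) b S' hedge hb1 hb2 hne
  rcases hw with hw | hw
  · rw [hw, Set.mem_singleton_iff] at hb1
    rcases w with v | r
    · exfalso
      apply hSl v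
      rw [hw]
      rfl
    · have hdec' : W.dec r = (0, 0) := by
        rw [Env.graft_dec_inr] at hdec hsum
        refine Prod.ext hdec ?_
        by_contra hne0
        obtain ⟨k, hk⟩ := Multiset.exists_mem_of_ne_zero hne0
        have h1 := erase_sum hk
        have h2 : k = 0 := by omega
        rw [h2] at hk
        exact hz r hk
      refine ⟨r, b, ((W.graft G).hf (inl (inr t, b))).2, hdec', ?_, ?_⟩
      · rw [nv_graft_inr] at hnv
        exact hnv
      · have h1 := graft_hf_lft W G (inl (t, b))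
        have h2 : (lft E (inl (t, b)) : ((E ⊕ T) × Bool) ⊕ N) = inl (inr t, b) := rfl
        rw [h2] at h1
        rw [h1] at hb1 ⊢
        rcases hy : W.use (inl (t, b)) with x | p
        · rw [Env.usehf_inl hy] at hb1
          cases hb1
        · rw [Env.usehf_inr hy] at hb1 ⊢
          have h3 := inr.inj hb1
          subst h3
          rfl
  · exfalso
    have hall : ∀ v, inl v = w := by
      intro v
      have : inl v ∈ S'ᶜ := hSl v
      rw [hw] at this
      exact this
    obtain ⟨v₀⟩ := hV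
    have hw0 := hall v₀
    subst hw0
    have huniq : ∀ v, v = v₀ := fun v => inl.inj (hall v)
    have hU : Unique V := ⟨⟨v₀⟩, huniq⟩
    have h1 := hG.2.2.1
    have h2 : (default : V) = v₀ := huniq _
    rw [finsum_unique, Nat.card_unique (α := V), h2] at h1
    have h3 : (G.dec v₀).1 = 0 := hdec
    have h4 : Nat.card E = g := by omega
    have h5 : Nat.card (E × Bool) ≤ (W.graft G).nv (inl v₀) := by
      unfold Gr.nv
      have : Finite {y // ((W.graft G).hf y).1 = inl v₀} := inferInstance
      refine Nat.card_le_card_of_injective (fun y : E × Bool =>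
        (⟨inl (inl y.1, y.2), ?_⟩ : {y // ((W.graft G).hf y).1 = inl v₀})) ?_
      · rw [Env.graft_hf_inl]
        exact congrArg inl (huniq _)
      · rintro ⟨e, b⟩ ⟨e', b'⟩ h
        have h6 := congrArg Subtype.val h
        simpa using h6
    rw [Nat.card_prod, Nat.card_eq_fintype_card (α := Bool), Fintype.card_bool, hnv] at h5
    omega

end Vale.Agent.P273.D14.H17
end
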