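import Vale.Agent.P273.D14.H17.Star

/-!
Relations at a vertex of genus 2.
-/

noncomputable section
namespace Vale.Agent.P273.D14.H17
open Sum Vale.Agent.P273 Vale.Agent.P273.C1.R3B Vale.Agent.P273.C1.R1B Vale.Agent.P273.D14.Mv
open scoped Classical

variable {V E V' E' L M N R T R' T' : Type}

lemma only_three {X : Type} (P : X → Prop) (h : Nat.card {x // P x} = 3) {a b c x : X}
    (ha : P a) (hb : P b) (hc : P c) (hx : P x) (hab : a ≠ b) (hac : a ≠ c) (hbc : b ≠ c) :
    x = a ∨ x = b ∨ x = c := by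
  by_contra hcon
  push Not at hcon
  obtain ⟨h1, h2, h3⟩ := hcon
  have hf : Finite {x // P x} := Nat.finite_of_card_ne_zero (by omega)
  have h4 : Nat.card (Fin 4) ≤ Nat.card {x // P x} := by
    refine Nat.card_le_card_of_injective
      (![⟨a, ha⟩, ⟨b, hb⟩, ⟨c, hc⟩, ⟨x, hx⟩] : Fin 4 → {x // P x}) ?_
    intro i j hij
    fin_cases i <;> fin_cases j <;> simp_all
  rw [Nat.card_eq_fintype_card, Fintype.card_fin, h] at h4
  omega

/-- Every vertex carries legs of both colours. -/
def SP (s : Q.Fn (N × Bool)) : Prop := ∀ (V E : Type) (G : Gr V E (N × Bool)),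
  Mv.sg s G ≠ 0 → ∀ v, (∃ a, (G.hf (inr (a, true))).1 = v) ∧ ∃ a, (G.hf (inr (a, false))).1 = v

lemma valid_of_ne {g d : ℕ} {s : Q.Fn N} (hs : Q.Tr g d s) {G : Gr V E N}
    (h : Mv.sg s G ≠ 0) : Q.Valid G.dec G.hf g d := by
  by_contra h1
  exact h (hs.1 _ _ _ _ h1)

lemma use_of_hf {W : Env R T L N} {G : Gr V E L} {z : (T × Bool) ⊕ N} {r : R}
    (h : ((W.graft G).hf (lft E z)).1 = inr r) :
    W.use z = inr (r, ((W.graft G).hf (lft E z)).2) := by
  rw [graft_hf_lft] at h ⊢
  rcases hz : W.use z with x | p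
  · rw [Env.usehf_inl hz] at h
    cases h
  · rw [Env.usehf_inr hz] at h ⊢
    have h1 := inr.inj h
    subst h1
    rfl

/-- every edge of the environment is the edge of a leaf -/
lemma edge_isLf [Finite R] [Finite T] [Finite V] [Finite E] [Finite L] [Finite N] {g d : ℕ}
    {s : Q.Fn (N × Bool)} (hs : Q.Tr g d s) (hbr : BR s) (hsp : SP s) (hg : 1 < g)
    {W : Env R T L (N × Bool)} {G : Gr V E L} (hG : G.Stab g) (hz : ∀ r, 0 ∉ (W.dec r).2)
    (hne : Mv.sg s (W.graft G) ≠ 0) (t : T) :
    ∃ (r : R) (b : Bool) (a a' : N), IsLf W (a, true) (a', false) r (t, b) := by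
  have hv := valid_of_ne hs hne
  have hH : (W.graft G).Stab g := ((cValid_iff _ _ _ _).1 hv).1.2.2.1
  obtain ⟨r, b, c, h1, h2, h3⟩ := edge_leaf hbr hg hG hH hz hne t
  obtain ⟨⟨a, ha⟩, ⟨a', ha'⟩⟩ := hsp _ _ _ hne (inr r)
  have ha1 : ((W.graft G).hf (lft E (inr (a, true)))).1 = inr r := ha
  have ha1' : ((W.graft G).hf (lft E (inr (a', false)))).1 = inr r := ha'
  have hu := use_of_hf ha1
  have hu' := use_of_hf ha1'
  -- the exponents are zero
  have hz' : ∀ z c, W.use z = inr (r, c) → c = 0 := by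
    intro z c hz
    have h4 := valid_psi_le hv (lft E z)
    rw [graft_hf_lft, Env.usehf_inr hz] at h4
    dsimp only at h4
    rw [nv_graft_inr, Env.graft_dec_inr, h1, h2] at h4
    dsimp only at h4
    omega
  have hfix : ∀ z c, W.use z = inr (r, c) → W.use z = inr (r, 0) := by
    intro z c h
    rw [h, hz' z c h]
  refine ⟨r, b, a, a', h1, by simp, hfix _ _ hu, hfix _ _ hu', hfix _ _ h3, ?_⟩
  intro z c hzc
  exact only_three (fun z => ∃ c, W.use z = inr (r, c)) h2 ⟨_, hu⟩ ⟨_, hu'⟩ ⟨_, h3⟩ ⟨_, hzc⟩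
    (by simp) (by simp) (by simp)

/-- The environment is a star of leaves. -/
lemma star [Finite R] [Finite T] [Finite V] [Finite E] [Finite L] [Finite N] {g d : ℕ}
    {s : Q.Fn (N × Bool)} (hs : Q.Tr g d s) (hbr : BR s) (hsp : SP s) (hg : 1 < g)
    {W : Env R T L (N × Bool)} {G : Gr V E L} (hG : G.Stab g) (hz : ∀ r, 0 ∉ (W.dec r).2)
    (hne : Mv.sg s (W.graft G) ≠ 0) :
    ∃ (r : T → R) (b : T → Bool) (a a' : T → N) (x : T → L),
      (∀ t, IsLf W (a t, true) (a' t, false) (r t) (t, b t)) ∧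
      (∀ t, W.use (inl (t, !b t)) = inl (x t)) ∧ r.Bijective := by
  have hv := valid_of_ne hs hne
  have hH : (W.graft G).Stab g := ((cValid_iff _ _ _ _).1 hv).1.2.2.1
  choose r b a a' hlf using edge_isLf hs hbr hsp hg hG hz hne
  have hV := hG.1
  have hinj : r.Injective := by
    intro t t' h
    have h1 := (hlf t').hy
    rw [← h] at h1
    rcases (hlf t).only _ _ h1 with h2 | h2 | h2
    · cases h2
    · cases h2
    · have h3 := inl.inj h2
      exact (congrArg Prod.fst h3).symm
  have hgen := genus_env hG hH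
  have hconn := conn_card (ctr W) (conn_ctr (G := G) hH.2.1)
  rw [Finite.card_option] at hconn
  have hbij : r.Bijective := hinj.bijective_of_nat_card_le (by omega)
  have hx : ∀ t, ∃ x, W.use (inl (t, !b t)) = inl x := by
    intro t
    rcases h : W.use (inl (t, !b t)) with x | ⟨r', c⟩
    · exact ⟨x, rfl⟩
    · exfalso
      obtain ⟨t', rfl⟩ := hbij.2 r'
      rcases (hlf t').only _ _ h with h2 | h2 | h2
      · cases h2
      · cases h2
      · have h3 := inl.inj h2
        have h4 : t = t' := congrArg Prod.fst h3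
        subst h4
        have h5 := congrArg Prod.snd h3
        simp at h5
  choose x hx using hx
  exact ⟨r, b, a, a', x, hlf, hx, hbij⟩

lemma al_mono {m n : ℕ} (h : m ≤ n) : al m ≤ al n :=
  Finset.sum_le_sum_of_subset (by simpa using h)

lemma card_legs [Finite T] {n : ℕ} (P : Fin n → Prop) (a : T → Fin n)
    (h : ∀ i, ¬ P i → ∃ t, a t = i) : n ≤ Nat.card {i // P i} + Nat.card T := by
  have h1 : Nat.card (Fin n) ≤ Nat.card ({i // P i} ⊕ T) := by
    refine Nat.card_le_card_of_surjective (Sum.elim Subtype.val a) ?_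
    intro i
    by_cases hi : P i
    · exact ⟨inl ⟨i, hi⟩, rfl⟩
    · obtain ⟨t, ht⟩ := h i hi
      exact ⟨inr t, ht⟩
  rwa [Nat.card_sum, Nat.card_eq_fintype_card, Fintype.card_fin] at h1

/-- Antisymmetry under the transposition of two legs. -/
def ASw (s : Q.Fn N) (i j : N) : Prop := ∀ V E a f,
  s V E a (fun y => f (y.map id (Equiv.swap i j))) = - s V E a f

lemma asw_iff (s : Q.Fn N) (i j : N) (D : DecidableEq N) : ASw s i j ↔ ∀ V E a f,
    s V E a (fun y => f (y.map id (@Equiv.swap N D i j))) = - s V E a f := by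
  have h : D = fun a b => Classical.propDecidable (a = b) := Subsingleton.elim _ _
  subst h
  exact Iff.rfl

/-- Antisymmetry in the legs of each colour. -/
def AS (s : Q.Fn (N × Bool)) : Prop := ∀ (c : Bool) (i j : N), i ≠ j → ASw s (i, c) (j, c)

/-- The sum of the weights of the legs of one colour. -/
lemma leg_sum [Finite L] {s : Q.Fn (N × Bool)} [Finite N] (has : AS s) {W : Env R T L (N × Bool)}
    (hW : ∀ y z x, W.use y = inl x → W.use z = inl x → y = z) {A : L → ℕ} (hA : ∀ x, A x ≤ 1)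
    {γ e : ℕ} (hne : rlE s W A γ e ≠ 0) (c : Bool)
    (q : {i : N // ∃ x, W.use (inr (i, c)) = inl x} → L)
    (hq : ∀ i, W.use (inr (i.1, c)) = inl (q i)) :
    al (Nat.card {i : N // ∃ x, W.use (inr (i, c)) = inl x}) ≤
      ∑ᶠ i, (A (q i) + 3 * W.b (q i)) := by
  have := Fintype.ofFinite N
  have := Fintype.ofFinite {i : N // ∃ x, W.use (inr (i, c)) = inl x}
  rw [Nat.card_eq_fintype_card, finsum_eq_sum_of_fintype]
  apply al_le (fun i => A (q i)) (fun i => W.b (q i)) (fun i => hA _)
  intro i j h1 h2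
  by_contra hij
  have hij' : i.1 ≠ j.1 := fun h => hij (Subtype.ext h)
  exact hne (rl_anti s W.dec W.use W.b A γ e hW (i.1, c) (j.1, c) (has c i.1 j.1 hij')
    (q i) (q j) (hq i) (hq j) h1 h2)

/-- Leaves with one leg of each colour. -/
def KK (i j : N × Bool) : Prop := i.2 = true ∧ j.2 = false

/-- Relations at a vertex of genus 2 without free leaves. -/
theorem genus2_noleaf {s : Q.Fn (Fin 8 × Bool)} (hs : Q.Tr 2 9 s) (hbr : BR s) (hsp : SP s)
    (has : AS s) (e : ℕ) (R T L : Type) (W : Env R T L (Fin 8 × Bool)) (A : L → ℕ)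
    (hR : Finite R) (hT : Finite T) (hL : Finite L)
    (hW : ∀ y z x, W.use y = inl x → W.use z = inl x → y = z) (hA : ∀ x, A x ≤ 1)
    (hlt : 2 + ∑ᶠ x, A x < 3 * e) (hz : ∀ r, 0 ∉ (W.dec r).2) (hf : ¬ FreeLf KK W A) :
    rlE s W A 2 e = 0 := by
  by_contra hne
  have hex : ∃ p ∈ supp 2 A e, cf 2 A e p * Mv.sg s (W.graft p.2.2) ≠ 0 := by
    rw [rlE_eq] at hne
    exact Finset.exists_ne_zero_of_sum_ne_zero hne
  obtain ⟨p, -, hp⟩ := hex
  have hw : wt p.2.2 2 A e ≠ 0 := by
    intro h
    apply hp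
    rw [cf, h, zero_div, zero_mul]
  have hs' : Mv.sg s (W.graft p.2.2) ≠ 0 := right_ne_zero_of_mul hp
  obtain ⟨hst, hdeg, -⟩ := wt_ne_zero hw
  obtain ⟨r, b, a, a', x, hlf, hx, hbij⟩ := star hs hbr hsp (by norm_num) hst hz hs'
  have hv := valid_of_ne hs hs'
  -- the degree
  have hd : (W.graft p.2.2).deg = 9 := ((cValid_iff _ _ _ _).1 hv).2
  rw [deg_graft W hW, hdeg] at hd
  have hd' : e + (Nat.card T + ∑ᶠ x, W.b x) ≤ 9 := by
    unfold Env.cdeg at hd
    omega
  -- the legs
  have hleg : ∀ c i, (¬ ∃ x, W.use (inr (i, c)) = inl x) →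
      ∃ t, (if c then a t else a' t) = i := by
    intro c i hi
    rcases h : W.use (inr (i, c)) with y | ⟨r', c'⟩
    · exact absurd ⟨y, h⟩ hi
    · obtain ⟨t, rfl⟩ := hbij.2 r'
      refine ⟨t, ?_⟩
      rcases (hlf t).only _ _ h with h2 | h2 | h2
      · have h3 := inr.inj h2
        rw [Prod.mk.injEq] at h3
        rw [h3.2, h3.1]
        rfl
      · have h3 := inr.inj h2
        rw [Prod.mk.injEq] at h3
        rw [h3.2, h3.1]
        rfl
      · cases h2
  have hkA := card_legs (fun i => ∃ x, W.use (inr (i, true)) = inl x) a (hleg true)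
  have hkB := card_legs (fun i => ∃ x, W.use (inr (i, false)) = inl x) a' (hleg false)
  choose qA hqA using fun i : {i : Fin 8 // ∃ x, W.use (inr (i, true)) = inl x} => i.2
  choose qB hqB using fun i : {i : Fin 8 // ∃ x, W.use (inr (i, false)) = inl x} => i.2
  have hsA := leg_sum has hW hA hne true qA hqA
  have hsB := leg_sum has hW hA hne false qB hqB
  -- the sum over all positions
  have := Fintype.ofFinite T
  have := Fintype.ofFinite L
  have htot : ∑ t, (A (x t) + 3 * W.b (x t)) + ((∑ᶠ i, (A (qA i) + 3 * W.b (qA i))) +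
      ∑ᶠ i, (A (qB i) + 3 * W.b (qB i))) ≤ ∑ x, (A x + 3 * W.b x) := by
    rw [finsum_eq_sum_of_fintype, finsum_eq_sum_of_fintype]
    let F : T ⊕ ({i : Fin 8 // ∃ x, W.use (inr (i, true)) = inl x} ⊕
      {i : Fin 8 // ∃ x, W.use (inr (i, false)) = inl x}) → L := Sum.elim x (Sum.elim qA qB)
    have hF : F.Injective := by
      rintro (t | i | i) (t' | j | j) h
      · have h1 := hW _ _ _ (hx t) (by rw [show x t = x t' from h]; exact hx t')
        have h2 := congrArg Prod.fst (inl.inj h1)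
        exact congrArg inl h2
      · have h1 := hW _ _ _ (hx t) (by rw [show x t = qA j from h]; exact hqA j)
        cases h1
      · have h1 := hW _ _ _ (hx t) (by rw [show x t = qB j from h]; exact hqB j)
        cases h1
      · have h1 := hW _ _ _ (hqA i) (by rw [show qA i = x t' from h]; exact hx t')
        cases h1
      · have h1 := hW _ _ _ (hqA i) (by rw [show qA i = qA j from h]; exact hqA j)
        have h2 := congrArg Prod.fst (inr.inj h1)
        rw [show i = j from Subtype.ext h2]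
      · have h1 := hW _ _ _ (hqA i) (by rw [show qA i = qB j from h]; exact hqB j)
        have h2 := congrArg Prod.snd (inr.inj h1)
        cases h2
      · have h1 := hW _ _ _ (hqB i) (by rw [show qB i = x t' from h]; exact hx t')
        cases h1
      · have h1 := hW _ _ _ (hqB i) (by rw [show qB i = qA j from h]; exact hqA j)
        have h2 := congrArg Prod.snd (inr.inj h1)
        cases h2
      · have h1 := hW _ _ _ (hqB i) (by rw [show qB i = qB j from h]; exact hqB j)
        have h2 := congrArg Prod.fst (inr.inj h1)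
        rw [show i = j from Subtype.ext h2]
    have h1 : ∑ z, (A (F z) + 3 * W.b (F z)) ≤ ∑ x, (A x + 3 * W.b x) := by
      rw [← Finset.sum_image (f := fun x => A x + 3 * W.b x) (g := F) (s := Finset.univ)
        (fun x _ y _ h => hF h)]
      exact Finset.sum_le_sum_of_subset (Finset.subset_univ _)
    rw [Fintype.sum_sum_type, Fintype.sum_sum_type] at h1
    exact h1
  have hT1 : Fintype.card T ≤ ∑ t, (A (x t) + 3 * W.b (x t)) := by
    rw [← Finset.card_univ, Finset.card_eq_sum_ones]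
    apply Finset.sum_le_sum
    intro t _
    by_contra hcon
    apply hf
    exact ⟨_, _, _, _, x t, ⟨rfl, rfl⟩, hlf t, hx t, by omega, by omega⟩
  rw [finsum_eq_sum_of_fintype] at hlt hd'
  have hsum : ∑ x, (A x + 3 * W.b x) = ∑ x, A x + 3 * ∑ x, W.b x := by
    rw [Finset.sum_add_distrib, ← Finset.mul_sum]
  rw [hsum] at htot
  rw [← Nat.card_eq_fintype_card] at hT1
  have h1 := al_mono (show 8 - Nat.card T ≤ _ from by omega : 8 - Nat.card T ≤
    Nat.card {i : Fin 8 // ∃ x, W.use (inr (i, true)) = inl x})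
  have h2 := al_mono (show 8 - Nat.card T ≤ _ from by omega : 8 - Nat.card T ≤
    Nat.card {i : Fin 8 // ∃ x, W.use (inr (i, false)) = inl x})
  have hT9 : Nat.card T ≤ 8 := by omega
  generalize Nat.card T = m at *
  have e0 : al 0 = 0 := rfl
  have e1 : al 1 = 0 := rfl
  have e2 : al 2 = 1 := rfl
  have e3 : al 3 = 4 := rfl
  have e4 : al 4 = 8 := rfl
  have e5 : al 5 = 14 := rfl
  have e6 : al 6 = 21 := rfl
  have e7 : al 7 = 30 := rfl
  have e8 : al 8 = 40 := rfl
  interval_cases m <;> simp only [Nat.sub_zero, Nat.sub_self, Nat.reduceSub, e0, e1, e2, e3, e4,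
    e5, e6, e7, e8] at h1 h2 <;> omega

/-- Relations at a vertex of genus 2. -/
theorem genus2 {s : Q.Fn (Fin 8 × Bool)} (hs : Q.Tr 2 9 s) (hbr : BR s) (hsp : SP s)
    (has : AS s) (hlk : ∀ i j, KillsLf 2 8 s (i, true) (j, false)) (e : ℕ) (R T L : Type)
    (W : Env R T L (Fin 8 × Bool)) (A : L → ℕ)
    (hR : Finite R) (hT : Finite T) (hL : Finite L)
    (hW : ∀ y z x, W.use y = inl x → W.use z = inl x → y = z) (hA : ∀ x, A x ≤ 1)
    (hlt : 2 + ∑ᶠ x, A x < 3 * e) : rlE s W A 2 e = 0 := by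
  refine leaf_crit hs (by rw [Nat.card_eq_fintype_card]; simp) KK ?_ 2 e ?_ R T L W A hR hT hL hW
    hA hlt
  · rintro ⟨i, c⟩ ⟨j, c'⟩ ⟨h1, h2⟩ -
    dsimp only at h1 h2
    subst h1 h2
    exact hlk i j
  · intro R T L W A hR hT hL hW hA hlt hz hf
    exact genus2_noleaf hs hbr hsp has e R T L W A hR hT hL hW hA hlt hz hf

/-! ### transport of leaf killing -/

lemma pull_neg (g d : ℕ) (t : Q.Fn (Option N)) (a : V → ℕ × Multiset ℕ)
    (f : (E × Bool) ⊕ N → V × ℕ) :
    Q.pull g d (fun V E a f => - t V E a f) V E a f = - Q.pull g d t V E a f := by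
  unfold Q.pull
  simp only [finsum_eq_if]
  split_ifs with h
  · have e1 : ∀ v, - t V E a (Q.ad f v 0) - ((a v).2.map fun k =>
        - t V E (Function.update a v ((a v).1, (a v).2.erase k)) (Q.ad f v k)).sum =
        - (t V E a (Q.ad f v 0) - ((a v).2.map fun k =>
        t V E (Function.update a v ((a v).1, (a v).2.erase k)) (Q.ad f v k)).sum) := by
      intro v
      rw [Multiset.sum_map_neg]
      ring
    have e2 : ∀ z, (if (f z).2 ≠ 0 then
        - t (Option V) (Option E) (Option.elim' (0, 0) a) (Q.bub f z) else 0) =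
        - (if (f z).2 ≠ 0 then
          t (Option V) (Option E) (Option.elim' (0, 0) a) (Q.bub f z) else 0) := by
      intro z
      split_ifs <;> simp
    simp only [e1, e2]
    rw [finsum_neg_distrib, finsum_neg_distrib]
    ring
  · simp

lemma KillsLf.swap {g d : ℕ} {s : Q.Fn N} {i j k l : N} (h : KillsLf g d s i j)
    (has : ASw s k l) : KillsLf g d s (Equiv.swap k l i) (Equiv.swap k l j) := by
  obtain ⟨M, ε, h1, h2, h3⟩ := h
  refine ⟨M, ε.trans (Equiv.swap k l), by rw [Equiv.trans_apply, h1],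
    by rw [Equiv.trans_apply, h2], ?_⟩
  intro V E a f
  have h4 : lk (rb (ε.trans (Equiv.swap k l)) s) = fun V E a f => - lk (rb ε s) V E a f := by
    funext V E a f
    show s _ _ _ _ = - s _ _ _ _
    rw [← has]
    congr 1
    funext y
    rcases y with y | y <;> rfl
  rw [h4, pull_neg, h3, neg_zero]

lemma KillsLf.left {g d : ℕ} {s : Q.Fn N} {i j k : N} (h : KillsLf g d s i j)
    (has : ASw s k i) (h1 : j ≠ k) (h2 : j ≠ i) : KillsLf g d s k j := by
  have h3 := h.swap has
  rwa [Equiv.swap_apply_right, Equiv.swap_apply_of_ne_of_ne h1 h2] at h3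

lemma KillsLf.right {g d : ℕ} {s : Q.Fn N} {i j k : N} (h : KillsLf g d s i j)
    (has : ASw s k j) (h1 : i ≠ k) (h2 : i ≠ j) : KillsLf g d s i k := by
  have h3 := h.swap has
  rwa [Equiv.swap_apply_right, Equiv.swap_apply_of_ne_of_ne h1 h2] at h3

lemma KillsLf.all {g d : ℕ} {s : Q.Fn (N × Bool)} (has : AS s) {a b : N}
    (h : KillsLf g d s (a, true) (b, false)) (i j : N) : KillsLf g d s (i, true) (j, false) := by
  have h1 : KillsLf g d s (i, true) (b, false) := by
    by_cases hi : i = a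
    · rw [hi]
      exact h
    · exact h.left (has true i a hi) (by simp) (by simp)
  by_cases hj : j = b
  · rw [hj]
    exact h1
  · exact h1.right (has false j b hj) (by simp) (by simp)

end Vale.Agent.P273.D14.H17
end
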