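import Vale.Agent.P273.D14.Move4

/-!
Leaves: vertices of genus 0 with two legs and one edge. If the restriction of a functional to the
graphs with a given leaf is killed by the forgetful pullback of the place of the leaf, then leaves
can be moved away from Pixton's relations.
-/

noncomputable section
namespace Vale.Agent.P273.D14.H17
open Sum Vale.Agent.P273 Vale.Agent.P273.C1.R3B Vale.Agent.P273.C1.R1B Vale.Agent.P273.D14.Mv
open scoped Classical

variable {V E V' E' L M N R T R' T' : Type}

/-- Glue a vertex of genus 0 with the two legs `none` and `some none` to the leg `none`. -/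
def leafG (G : Gr V E (Option M)) : Gr (Option V) (Option E) (Option (Option M)) :=
  let u := fun y => (some (G.hf y).1, (G.hf y).2)
  ⟨Option.elim' (0, 0) G.dec, Sum.elim (fun y => y.1.elim
    (cond y.2 (none, 0) (u (inr none))) fun e => u (inl (e, y.2)))
    (Option.elim' (none, 0) (Option.elim' (none, 0) fun x => u (inr (some x))))⟩

/-- The old half-edges. -/
def lo : (E × Bool) ⊕ Option M → (Option E × Bool) ⊕ Option (Option M) :=
  Sum.elim (fun p => inl (some p.1, p.2))
    (fun o => o.elim (inl (none, false)) fun x => inr (some (some x)))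

lemma leafG_old (G : Gr V E (Option M)) (y : (E × Bool) ⊕ Option M) :
    (leafG G).hf (lo y) = (some (G.hf y).1, (G.hf y).2) := by
  rcases y with ⟨e, b⟩ | _ | x <;> rfl

lemma leafG_true (G : Gr V E (Option M)) : (leafG G).hf (inl (none, true)) = (none, 0) := rfl

lemma leafG_leg1 (G : Gr V E (Option M)) : (leafG G).hf (inr none) = (none, 0) := rfl

lemma leafG_leg2 (G : Gr V E (Option M)) : (leafG G).hf (inr (some none)) = (none, 0) := rfl

lemma leaf_cases (y : (Option E × Bool) ⊕ Option (Option M)) : y = inl (none, true) ∨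
    y = inr none ∨ y = inr (some none) ∨ ∃ y', y = lo y' := by
  rcases y with ⟨_ | e, _ | _⟩ | _ | _ | x
  · exact Or.inr (Or.inr (Or.inr ⟨inr none, rfl⟩))
  · exact Or.inl rfl
  · exact Or.inr (Or.inr (Or.inr ⟨inl (e, false), rfl⟩))
  · exact Or.inr (Or.inr (Or.inr ⟨inl (e, true), rfl⟩))
  · exact Or.inr (Or.inl rfl)
  · exact Or.inr (Or.inr (Or.inl rfl))
  · exact Or.inr (Or.inr (Or.inr ⟨inr (some x), rfl⟩))

lemma finsum_leaf {A : Type*} [AddCommMonoid A] [Finite E] [Finite M]
    (f : (Option E × Bool) ⊕ Option (Option M) → A) :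
    ∑ᶠ y, f y = f (inl (none, true)) + f (inr none) + f (inr (some none)) +
      ∑ᶠ y, f (lo y) := by
  have := Fintype.ofFinite E
  have := Fintype.ofFinite M
  rw [finsum_eq_sum_of_fintype, finsum_eq_sum_of_fintype, Fintype.sum_sum_type,
    Fintype.sum_sum_type, Fintype.sum_prod_type, Fintype.sum_prod_type, Fintype.sum_option,
    Fintype.sum_option, Fintype.sum_option, Fintype.sum_option]
  simp only [Fintype.sum_bool]
  have e1 : ∀ e : E, ∀ b, f (lo (inl (e, b))) = f (inl (some e, b)) := fun e b => rfl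
  have e2 : ∀ x : M, f (lo (inr (some x))) = f (inr (some (some x))) := fun x => rfl
  have e3 : f (lo (inr none)) = f (inl (none, false)) := rfl
  simp only [e1, e2, e3]
  abel

lemma nv_leaf [Finite E] [Finite M] (G : Gr V E (Option M)) (v : V) :
    (leafG G).nv (some v) = G.nv v := by
  rw [nv_eq_finsum, nv_eq_finsum, finsum_leaf]
  simp only [leafG_old, leafG_true, leafG_leg1, leafG_leg2, reduceCtorEq, if_false, zero_add,
    Option.some.injEq]

lemma nv_leaf_none [Finite E] [Finite M] (G : Gr V E (Option M)) :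
    (leafG G).nv none = 3 := by
  rw [nv_eq_finsum, finsum_leaf]
  simp only [leafG_old, leafG_true, leafG_leg1, leafG_leg2, reduceCtorEq, if_false, if_true,
    finsum_zero]
  rfl

lemma psi_leaf [Finite E] [Finite M] (G : Gr V E (Option M)) (v : V) :
    ∑ᶠ (y) (_ : ((leafG G).hf y).1 = some v), ((leafG G).hf y).2 =
      ∑ᶠ (y) (_ : (G.hf y).1 = v), (G.hf y).2 := by
  rw [psi_eq_finsum, psi_eq_finsum, finsum_leaf]
  simp only [leafG_old, leafG_true, leafG_leg1, leafG_leg2, reduceCtorEq, if_false, zero_add,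
    Option.some.injEq]

lemma deg_leaf [Finite V] [Finite E] [Finite M] (G : Gr V E (Option M)) :
    (leafG G).deg = G.deg + 1 := by
  have := Fintype.ofFinite V
  unfold Gr.deg
  rw [finsum_leaf, leafG_true, leafG_leg1, leafG_leg2, Finite.card_option]
  have e1 : ∑ᶠ v, ((leafG G).dec v).2.sum = ∑ᶠ v, (G.dec v).2.sum := by
    rw [finsum_eq_sum_of_fintype, finsum_eq_sum_of_fintype, Fintype.sum_option]
    have e1 : ((leafG G).dec none).2.sum = 0 := rfl
    have e2 : ∀ v, ((leafG G).dec (some v)).2.sum = (G.dec v).2.sum := fun v => rfl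
    simp only [e1, e2, zero_add]
  rw [e1]
  simp only [leafG_old]
  omega

lemma conn_leaf (G : Gr V E (Option M))
    (h : ∀ s : Set (Option V), (∀ e, ((leafG G).hf (inl (e, true))).1 ∈ s ↔
      ((leafG G).hf (inl (e, false))).1 ∈ s) → s = ∅ ∨ s = Set.univ) :
    ∀ s : Set V, (∀ e, (G.hf (inl (e, true))).1 ∈ s ↔ (G.hf (inl (e, false))).1 ∈ s) →
      s = ∅ ∨ s = Set.univ := by
  intro s hs
  have h1 := h {w | w.elim ((G.hf (inr none)).1 ∈ s) (· ∈ s)} (by
    rintro (_ | e)
    · exact Iff.rfl
    · exact hs e)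
  rcases h1 with h1 | h1
  · left
    ext w
    have h6 : some w ∈ ({w | w.elim ((G.hf (inr none)).1 ∈ s) (· ∈ s)} : Set (Option V)) ↔
        some w ∈ (∅ : Set (Option V)) := by rw [h1]
    exact h6
  · right
    ext w
    have h6 : some w ∈ ({w | w.elim ((G.hf (inr none)).1 ∈ s) (· ∈ s)} : Set (Option V)) ↔
        some w ∈ (Set.univ : Set (Option V)) := by rw [h1]
    simpa using h6

lemma valid_leaf [Finite M] {G : Gr V E (Option M)} {g d : ℕ}
    (h : Q.Valid (leafG G).dec (leafG G).hf g (d + 1)) : Q.Valid G.dec G.hf g d := by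
  rw [cValid_iff] at h ⊢
  obtain ⟨⟨hV, hE, ⟨_, h2, h3, h4⟩, h5⟩, h6⟩ := h
  have hV' : Finite V := Finite.of_injective some (Option.some_injective V)
  have hE' : Finite E := Finite.of_injective some (Option.some_injective E)
  have := Fintype.ofFinite V
  refine ⟨⟨hV', hE', ⟨⟨(G.hf (inr none)).1⟩, conn_leaf G h2, ?_, ?_⟩, ?_⟩, ?_⟩
  · rw [finsum_eq_sum_of_fintype, Fintype.sum_option] at h3
    rw [finsum_eq_sum_of_fintype]
    have e1 : ((leafG G).dec none).1 = 0 := rfl
    have e2 : ∀ v, ((leafG G).dec (some v)).1 = (G.dec v).1 := fun v => rfl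
    change ((leafG G).dec none).1 + ∑ v, ((leafG G).dec (some v)).1 + _ + 1 = _ at h3
    simp only [e1, e2, zero_add] at h3
    rw [Finite.card_option, Finite.card_option] at h3
    change ∑ v, (G.dec v).1 + _ + 1 = _
    omega
  · intro v
    have h7 := h4 (some v)
    change 2 < 2 * (G.dec v).1 + (leafG G).nv (some v) at h7
    rw [nv_leaf] at h7
    exact h7
  · intro v
    have h7 := h5 (some v)
    change (G.dec v).2.sum + ∑ᶠ (y) (_ : ((leafG G).hf y).1 = some v), ((leafG G).hf y).2 + 3 ≤
      3 * (G.dec v).1 + (leafG G).nv (some v) at h7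
    rw [nv_leaf, psi_leaf] at h7
    exact h7
  · change (leafG G).deg = d + 1 at h6
    rw [deg_leaf] at h6
    change G.deg = d
    omega

lemma upd_self {α β : Type} (i : DecidableEq α) (f : α → β) (a : α) (v : β) :
    @Function.update α (fun _ => β) i f a v a = v := Function.update_self a v f

lemma upd_ne {α β : Type} (i : DecidableEq α) (f : α → β) {a b : α} (v : β) (h : b ≠ a) :
    @Function.update α (fun _ => β) i f a v b = f b := Function.update_of_ne h v f

/-- The value of a functional on a graph with a leaf glued to the leg `none`. -/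
def lk (s : Q.Fn (Option (Option M))) : Q.Fn (Option M) := fun V E a f =>
  Mv.sg s (leafG (⟨a, f⟩ : Gr V E (Option M)))

/-- isomorphisms extend to the graph with the leaf -/
def emo (ρ : E × Bool → E' × Bool) : Option E × Bool → Option E' × Bool := fun y =>
  y.1.elim (none, y.2) (fun e => (some (ρ (e, y.2)).1, (ρ (e, y.2)).2))

lemma emo_bij {ρ : E × Bool → E' × Bool} (h : ρ.Bijective) : (emo ρ).Bijective := by
  constructor
  · rintro ⟨_ | e, b⟩ ⟨_ | e', b'⟩ hh
    · simp only [emo, Option.elim_none, Prod.mk.injEq, true_and] at hh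
      rw [hh]
    · simp [emo] at hh
    · simp [emo] at hh
    · simp only [emo, Option.elim_some, Prod.mk.injEq, Option.some.injEq] at hh
      have h1 : ρ (e, b) = ρ (e', b') := Prod.ext hh.1 hh.2
      have h2 := h.1 h1
      simp only [Prod.mk.injEq] at h2
      rw [h2.1, h2.2]
  · rintro ⟨_ | e, b⟩
    · exact ⟨(none, b), rfl⟩
    · obtain ⟨⟨e', b'⟩, h1⟩ := h.2 (e, b)
      exact ⟨(some e', b'), by simp [emo, h1]⟩

lemma leaf_iso {G : Gr V E (Option M)} {G' : Gr V' E' (Option M)} {φ : V → V'}
    {ρ : E × Bool → E' × Bool} (I : IsoData G G' φ ρ) :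
    IsoData (leafG G) (leafG G') (Option.map φ) (emo ρ) where
  h1 := by
    constructor
    · exact Option.map_injective I.h1.1
    · rintro (_ | v)
      · exact ⟨none, rfl⟩
      · obtain ⟨w, rfl⟩ := I.h1.2 v
        exact ⟨some w, rfl⟩
  h2 := emo_bij I.h2
  h3 := by
    rintro (_ | e)
    · rfl
    · show some (ρ (e, true)).1 = some (ρ (e, false)).1
      rw [I.h3]
  h4 := by
    rintro (_ | v)
    · rfl
    · exact I.h4 v
  h5 := by
    intro y
    rcases leaf_cases y with rfl | rfl | rfl | ⟨y, rfl⟩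
    · rfl
    · rfl
    · rfl
    · have h1 : (lo y).map (emo ρ) id = lo (y.map ρ id) := by
        rcases y with ⟨e, b⟩ | _ | x <;> rfl
      rw [h1, leafG_old, leafG_old, I.h5]
      rfl

lemma tr_lk [Finite M] {s : Q.Fn (Option (Option M))} {g d : ℕ} (hs : Q.Tr g (d + 1) s) :
    Q.Tr g d (lk s) := by
  refine ⟨?_, ?_, ?_⟩
  · intro V E a f hv
    apply hs.1
    intro h
    exact hv (valid_leaf (G := (⟨a, f⟩ : Gr V E (Option M))) h)
  · intro V E V' E' a f f' p q k1 k2 k3 k5
    have I : IsoData (⟨a ∘ p, f⟩ : Gr V E (Option M)) (⟨a, f'⟩ : Gr V' E' (Option M)) p q :=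
      ⟨k1, k2, k3, fun _ => rfl, k5⟩
    have J := leaf_iso I
    have h2 := hs.2.1 _ _ _ _ (leafG (⟨a, f'⟩ : Gr V' E' (Option M))).dec
      (leafG (⟨a ∘ p, f⟩ : Gr V E (Option M))).hf (leafG (⟨a, f'⟩ : Gr V' E' (Option M))).hf _ _
      J.h1 J.h2 J.h3 J.h5
    have h3 : (leafG (⟨a, f'⟩ : Gr V' E' (Option M))).dec ∘ Option.map p =
        (leafG (⟨a ∘ p, f⟩ : Gr V E (Option M))).dec := funext fun x => J.h4 x
    rw [h3] at h2
    exact h2
  · intro V E a f v
    by_cases hE : Finite E
    · have h1 := hs.2.2 _ _ (leafG (⟨a, f⟩ : Gr V E (Option M))).dec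
        (leafG (⟨a, f⟩ : Gr V E (Option M))).hf (some v)
      refine Eq.trans (congrArg (fun z => s (Option V) (Option E) z
        (leafG (⟨a, f⟩ : Gr V E (Option M))).hf) ?_) (h1.trans ?_)
      · funext w
        rcases w with _ | w
        · rw [upd_ne _ _ _ (by simp)]
          rfl
        · by_cases hw : w = v
          · subst hw
            rw [upd_self]
            show Function.update a w ((a w).1, 0 ::ₘ (a w).2) w = _
            rw [Function.update_self]
            rfl
          · rw [upd_ne _ _ _ (by simpa using hw)]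
            show Function.update a v ((a v).1, 0 ::ₘ (a v).2) w = _
            rw [Function.update_of_ne hw]
            rfl
      have h3 : Q.nv (leafG (⟨a, f⟩ : Gr V E (Option M))).hf (some v) = Q.nv f v := by
        rw [cnv_eq (leafG (⟨a, f⟩ : Gr V E (Option M))).dec, cnv_eq a]
        exact nv_leaf (⟨a, f⟩ : Gr V E (Option M)) v
      rw [h3]
      rfl
    · have h0 : ∀ a', lk s V E a' f = 0 := by
        intro a'
        apply hs.1
        intro h
        exact hE (valid_leaf (G := (⟨a', f⟩ : Gr V E (Option M))) h).1.2.1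
      rw [h0, h0, mul_zero]

/-! ### environments -/

/-- Positions in the larger environment. -/
def up : L ⊕ R × ℕ → L ⊕ Option R × ℕ := Sum.map id (Prod.map some id)

/-- The environment with a leaf glued to the leg `none`. -/
def leafE (W : Env R T L (Option M)) : Env (Option R) (Option T) L (Option (Option M)) :=
  ⟨Option.elim' (0, 0) W.dec, Sum.elim (fun p => p.1.elim (cond p.2 (inr (none, 0))
      (up (W.use (inr none)))) fun t => up (W.use (inl (t, p.2))))
    (fun o => o.elim (inr (none, 0)) fun o => o.elim (inr (none, 0)) fun m =>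
      up (W.use (inr (some m)))), W.b⟩

lemma leafE_old (W : Env R T L (Option M)) (y : (T × Bool) ⊕ Option M) :
    (leafE W).use (lo y) = up (W.use y) := by
  rcases y with ⟨e, b⟩ | _ | x <;> rfl

lemma leafE_true (W : Env R T L (Option M)) :
    (leafE W).use (inl (none, true)) = inr (none, 0) := rfl

lemma leafE_leg1 (W : Env R T L (Option M)) : (leafE W).use (inr none) = inr (none, 0) := rfl

lemma leafE_leg2 (W : Env R T L (Option M)) :
    (leafE W).use (inr (some none)) = inr (none, 0) := rfl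

lemma up_eq_inl {p : L ⊕ R × ℕ} {x : L} : up p = inl x ↔ p = inl x := by
  rcases p with p | p <;> simp [up]

lemma leafE_range (W : Env R T L (Option M)) (x : L) :
    inl x ∈ Set.range (leafE W).use ↔ inl x ∈ Set.range W.use := by
  constructor
  · rintro ⟨z, hz⟩
    rcases leaf_cases z with rfl | rfl | rfl | ⟨z, rfl⟩
    · cases hz
    · cases hz
    · cases hz
    · rw [leafE_old, up_eq_inl] at hz
      exact ⟨z, hz⟩
  · rintro ⟨z, hz⟩
    exact ⟨lo z, by rw [leafE_old, up_eq_inl, hz]⟩

lemma leafE_inj {W : Env R T L (Option M)}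
    (hW : ∀ y z x, W.use y = inl x → W.use z = inl x → y = z) :
    ∀ y z x, (leafE W).use y = inl x → (leafE W).use z = inl x → y = z := by
  intro y z x hy hz
  rcases leaf_cases y with rfl | rfl | rfl | ⟨y, rfl⟩
  · cases hy
  · cases hy
  · cases hy
  rcases leaf_cases z with rfl | rfl | rfl | ⟨z, rfl⟩
  · cases hz
  · cases hz
  · cases hz
  rw [leafE_old, up_eq_inl] at hy hz
  rw [hW _ _ _ hy hz]

lemma leafE_graft {g d : ℕ} {s : Q.Fn (Option (Option M))} (hs : Q.Tr g d s)
    (W : Env R T L (Option M)) (G : Gr V E L) :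
    Mv.sg s ((leafE W).graft G) = Mv.sg s (leafG (W.graft G)) := by
  apply iso_s hs _ _ swr swr swr_bij swr_bij
  · rintro (v | _ | r)
    · show ((W.graft G).dec (inl v)) = _
      rw [Env.graft_dec_inl, Env.graft_dec_inl]
      congr 2
      unfold Env.unused
      apply finsum_congr
      intro x
      rw [leafE_range]
      rfl
    · rfl
    · rfl
  · intro z
    rcases graft_cases z with ⟨e, b, rfl⟩ | ⟨z, rfl⟩
    · rfl
    · rw [graft_hf_lft]
      rcases leaf_cases z with rfl | rfl | rfl | ⟨z, rfl⟩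
      · rfl
      · rfl
      · rfl
      · have h1 : (lft E (lo z) : ((E ⊕ Option T) × Bool) ⊕ Option (Option M)).map
            (Prod.map swr id) id = lo (lft E z) := by
          rcases z with ⟨t, b⟩ | _ | z <;> rfl
        rw [h1, leafG_old, graft_hf_lft]
        rcases hz : W.use z with x | p
        · have h2 : (leafE W).use (lo z) = inl x := by rw [leafE_old, hz]; rfl
          rw [Env.usehf_inl h2, Env.usehf_inl hz]
          rfl
        · have h2 : (leafE W).use (lo z) = inr (some p.1, p.2) := by rw [leafE_old, hz]; rfl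
          rw [Env.usehf_inr h2, Env.usehf_inr hz]
          rfl

lemma rlE_leafE [Finite L] {g d : ℕ} {s : Q.Fn (Option (Option M))} (hs : Q.Tr g d s)
    (W : Env R T L (Option M)) (A : L → ℕ) (γ e : ℕ) :
    rlE s (leafE W) A γ e = rlE (lk s) W A γ e := by
  rw [rlE_eq, rlE_eq]
  apply Finset.sum_congr rfl
  intro p _
  rw [leafE_graft hs]
  rfl

/-! ### isomorphisms of environments -/

/-- An isomorphism of environments. -/
structure EIso (W : Env R T L N) (W' : Env R' T' L N) (φ : R → R')
    (ρ : T × Bool → T' × Bool) : Prop where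
  h1 : φ.Bijective
  h2 : ρ.Bijective
  h3 : ∀ e, (ρ (e, true)).1 = (ρ (e, false)).1
  h4 : ∀ v, W'.dec (φ v) = W.dec v
  h5 : ∀ y, W'.use (y.map ρ id) = (W.use y).map id (Prod.map φ id)
  h6 : W'.b = W.b

lemma EIso.range {W : Env R T L N} {W' : Env R' T' L N} {φ : R → R'}
    {ρ : T × Bool → T' × Bool} (I : EIso W W' φ ρ) (x : L) :
    inl x ∈ Set.range W'.use ↔ inl x ∈ Set.range W.use := by
  constructor
  · rintro ⟨y, hy⟩
    obtain ⟨y, rfl⟩ : ∃ z : (T × Bool) ⊕ N, y = z.map ρ id := by
      rcases y with y | y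
      · obtain ⟨z, rfl⟩ := I.h2.2 y
        exact ⟨inl z, rfl⟩
      · exact ⟨inr y, rfl⟩
    rw [I.h5] at hy
    refine ⟨y, ?_⟩
    rcases hz : W.use y with x' | p
    · rw [hz] at hy
      simpa using hy
    · rw [hz] at hy
      simp at hy
  · rintro ⟨y, hy⟩
    exact ⟨y.map ρ id, by rw [I.h5, hy]; rfl⟩

lemma EIso.graft {W : Env R T L N} {W' : Env R' T' L N} {φ : R → R'}
    {ρ : T × Bool → T' × Bool} (I : EIso W W' φ ρ) (G : Gr V E L) :
    IsoData (W.graft G) (W'.graft G) (Sum.map id φ)
      (fun y => y.1.elim (fun e => (inl e, y.2)) (fun t => (inr (ρ (t, y.2)).1, (ρ (t, y.2)).2)))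
    where
  h1 := by
    constructor
    · exact Function.Injective.sumMap Function.injective_id I.h1.1
    · exact Function.Surjective.sumMap Function.surjective_id I.h1.2
  h2 := by
    constructor
    · rintro ⟨e | t, b⟩ ⟨e' | t', b'⟩ hh
      · simpa using hh
      · simp at hh
      · simp at hh
      · simp only [elim_inr, Prod.mk.injEq, inr.injEq] at hh
        have h1 : ρ (t, b) = ρ (t', b') := Prod.ext hh.1 hh.2
        have h2 := I.h2.1 h1
        simp only [Prod.mk.injEq] at h2
        rw [h2.1, h2.2]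
    · rintro ⟨e | t, b⟩
      · exact ⟨(inl e, b), rfl⟩
      · obtain ⟨⟨t', b'⟩, h1⟩ := I.h2.2 (t, b)
        exact ⟨(inr t', b'), by simp [h1]⟩
  h3 := by
    rintro (e | t)
    · rfl
    · show (inr (ρ (t, true)).1 : E ⊕ T') = inr (ρ (t, false)).1
      rw [I.h3]
  h4 := by
    rintro (v | r)
    · show (W'.graft G).dec (inl v) = _
      rw [Env.graft_dec_inl, Env.graft_dec_inl]
      congr 2
      unfold Env.unused
      apply finsum_congr
      intro x
      rw [I.range, I.h6]
    · exact I.h4 r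
  h5 := by
    intro y
    rcases graft_cases y with ⟨e, b, rfl⟩ | ⟨z, rfl⟩
    · rfl
    · have h1 : (lft E z : ((E ⊕ T) × Bool) ⊕ N).map (fun y : (E ⊕ T) × Bool =>
          y.1.elim (fun e => ((inl e : E ⊕ T'), y.2))
          (fun t => (inr (ρ (t, y.2)).1, (ρ (t, y.2)).2))) id = lft E (z.map ρ id) := by
        rcases z with ⟨t, b⟩ | z <;> rfl
      rw [h1, graft_hf_lft, graft_hf_lft]
      rcases hz : W.use z with x | p
      · have h2 : W'.use (z.map ρ id) = inl x := by rw [I.h5, hz]; rfl
        rw [Env.usehf_inl h2, Env.usehf_inl hz, I.h6]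
        rfl
      · have h2 : W'.use (z.map ρ id) = inr (φ p.1, p.2) := by rw [I.h5, hz]; rfl
        rw [Env.usehf_inr h2, Env.usehf_inr hz]
        rfl

lemma sg_iso {g d : ℕ} {s : Q.Fn N} (hs : Q.Tr g d s) {G : Gr V E N} {G' : Gr V' E' N}
    {φ : V → V'} {ρ : E × Bool → E' × Bool} (J : IsoData G G' φ ρ) : Mv.sg s G = Mv.sg s G' := by
  have h2 := hs.2.1 _ _ _ _ G'.dec G.hf G'.hf _ _ J.h1 J.h2 J.h3 J.h5
  have h3 : G'.dec ∘ φ = G.dec := funext fun x => J.h4 x
  rw [h3] at h2
  exact h2

lemma EIso.rlE [Finite L] {g d : ℕ} {s : Q.Fn N} (hs : Q.Tr g d s) {W : Env R T L N}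
    {W' : Env R' T' L N} {φ : R → R'} {ρ : T × Bool → T' × Bool} (I : EIso W W' φ ρ)
    (A : L → ℕ) (γ e : ℕ) : rlE s W A γ e = rlE s W' A γ e := by
  rw [rlE_eq, rlE_eq]
  apply Finset.sum_congr rfl
  intro p _
  rw [sg_iso hs (I.graft p.2.2)]

end Vale.Agent.P273.D14.H17
end
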